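import Vale.Agent.P247.Stmt
import Vale.Agent.P247.Bdl.B1

namespace Vale.Agent.Results.P247.TorusFibration

open Vale.Agent.P247.Stmt

/-- Donaldson's hypersymplectic deformation conjecture on `T⁴` when two linearly independent
constant combinations of the forms vanish on the fibres of a torus fibration. -/
theorem result (w : Fin 3 → Form 2) (hw : Hypersymplectic w) (hn : Normalized w)
    (f : R4 → R4) (hf : TorusDiffeo f) (b c : Fin 3 → ℝ)
    (hbc : ∀ s t : ℝ, (∀ i, s * b i + t * c i = 0) → s = 0 ∧ t = 0)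
    (hb : ∀ x u v, Vertical f x u → Vertical f x v → ∑ i, b i * val (w i) x u v = 0)
    (hc : ∀ x u v, Vertical f x u → Vertical f x v → ∑ i, c i * val (w i) x u v = 0) :
    ∃ γ : ℝ → Fin 3 → Form 2, Deformation w γ ∧ Hyperkahler (γ 1) :=
  Vale.Agent.P247.stmt_of_main
    (fun _ hw hn Φ _ _ hbc hb hc =>
      Vale.Agent.P247.main_of_taming Vale.Agent.P247.taming_holds hw hn Φ hbc hb hc)
    w hw hn f hf b c hbc hb hc

end Vale.Agent.Results.P247.TorusFibration
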